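import Mathlib.Algebra.Category.FGModuleCat.Abelian
import Mathlib.Algebra.Category.ModuleCat.Ext.HasExt
import Mathlib.RingTheory.Artinian.Module

/-!
# P195: Artin algebras, condition (AR), the Auslander-Reiten conjecture
-/

open CategoryTheory CategoryTheory.Abelian

universe u

namespace Vale.Agent.P195L43

/-- `R` is finitely generated as a module over a (commutative) Artinian ring contained in its
centre. -/
def IsArtinAlgebra (R : Type u) [Ring R] : Prop :=
  ∃ S : Subring R, S ≤ Subring.center R ∧ IsArtinianRing S ∧ Module.Finite S R

/-- All `Ext` groups of positive degree from `X` to `Y` vanish. -/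
def ExtVanish {C : Type (u + 1)} [Category.{u} C] [Abelian C] [HasExt.{u} C] (X Y : C) : Prop :=
  ∀ i : ℕ, 1 ≤ i → Subsingleton (Ext X Y i)

/-- Condition (AR): `Ext^i(M, M ⊕ R) = 0` for all `i ≥ 1` (category of all left modules). -/
def AR (R : Type u) [Ring R] (M : Type u) [AddCommGroup M] [Module R M] : Prop :=
  ExtVanish (ModuleCat.of R M) (ModuleCat.of R (M × R))

/-- Condition (AR) with `Ext` in the category of finitely generated left modules. -/
def ARfg (R : Type u) [Ring R] [IsNoetherianRing R] [HasExt.{u} (FGModuleCat.{u} R)]
    (M : Type u) [AddCommGroup M] [Module R M] [Module.Finite R M] : Prop :=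
  ExtVanish (FGModuleCat.of R M) (FGModuleCat.of R (M × R))

/-- The Auslander-Reiten conjecture. -/
def Conjecture : Prop :=
  ∀ (R : Type u) [Ring R] (M : Type u) [AddCommGroup M] [Module R M],
    IsArtinAlgebra R → Module.Finite R M → AR R M → Module.Projective R M

end Vale.Agent.P195L43
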