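import Mathlib.Algebra.Category.ModuleCat.Biproducts
import Mathlib.Algebra.Homology.DerivedCategory.Ext.MapBijective
import Mathlib.RingTheory.HopkinsLevitzki
import Vale.Agent.P195L43.Defs

/-!
# P195: the two forms of (AR), finitely generated modules, Artin algebras
-/

open CategoryTheory CategoryTheory.Abelian Limits

universe u

namespace Vale.Agent.P195L43

variable {R : Type u} [Ring R] {M : Type u} [AddCommGroup M] [Module R M]

theorem retract_ext {X Y Z : ModuleCat.{u} R} (f : Y ⟶ Z) (g : Z ⟶ Y) (h : f ≫ g = 𝟙 Y) {i : ℕ}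
    (H : Subsingleton (Ext X Z i)) : Subsingleton (Ext X Y i) :=
  subsingleton_of_forall_eq 0 fun e => by
    have h1 : (e.comp (Ext.mk₀ f) (add_zero i)).comp (Ext.mk₀ g) (add_zero i) = e := by
      rw [Ext.comp_assoc_of_second_deg_zero, Ext.mk₀_comp_mk₀, h, Ext.comp_mk₀_id]
    rw [← h1, Subsingleton.elim (e.comp (Ext.mk₀ f) (add_zero i)) 0, Ext.zero_comp]

theorem ar_iff : AR R M ↔ ExtVanish (ModuleCat.of R M) (ModuleCat.of R M) ∧
    ExtVanish (ModuleCat.of R M) (ModuleCat.of R R) := by
  refine ⟨fun h => ⟨fun i hi => retract_ext (ModuleCat.ofHom (LinearMap.inl R M R))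
    (ModuleCat.ofHom (LinearMap.fst R M R)) (by ext; simp) (h i hi), fun i hi => retract_ext
    (ModuleCat.ofHom (LinearMap.inr R M R)) (ModuleCat.ofHom (LinearMap.snd R M R))
    (by ext; simp) (h i hi)⟩, fun h i hi => ?_⟩
  have := h.1 i hi
  have := h.2 i hi
  have e := ModuleCat.biprodIsoProd (ModuleCat.of R M) (ModuleCat.of R R)
  exact retract_ext e.inv e.hom e.inv_hom_id Ext.addEquivBiprod.subsingleton

theorem ar_of_projective (h : Module.Projective R M) : AR R M := fun i hi => by
  obtain ⟨j, rfl⟩ : ∃ j, i = j + 1 := ⟨i - 1, by omega⟩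
  exact Ext.subsingleton_of_projective _ _ _

theorem artin_of_finite (K : Type u) [Field K] [Algebra K R] (h : Module.Finite K R) :
    IsArtinAlgebra R := by
  refine ⟨(algebraMap K R).range, ?_, (algebraMap K R).rangeRestrict_surjective.isArtinianRing, ?_⟩
  · rintro _ ⟨k, rfl⟩
    exact Subring.mem_center_iff.2 fun g => (Algebra.commutes k g).symm
  · obtain ⟨s, hs⟩ := h.fg_top
    refine ⟨s, eq_top_iff.2 fun x _ => ?_⟩
    have hx : x ∈ Submodule.span K (s : Set R) := hs ▸ Submodule.mem_top
    induction hx using Submodule.span_induction with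
    | mem x hx => exact Submodule.subset_span hx
    | zero => exact zero_mem _
    | add x y _ _ hx hy => exact add_mem (hx trivial) (hy trivial)
    | smul k x _ hx =>
      rw [Algebra.smul_def]
      exact Submodule.smul_mem _ (⟨_, k, rfl⟩ : (algebraMap K R).range) (hx trivial)

theorem IsArtinAlgebra.noeth (h : IsArtinAlgebra R) : IsNoetherianRing R := by
  obtain ⟨S, -, h1, h2⟩ := h
  have : IsArtinianRing R := isArtinian_of_tower S inferInstance
  infer_instance

section
variable [IsNoetherianRing R]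

theorem exists_pres (X : FGModuleCat.{u} R) : ∃ (P : FGModuleCat.{u} R) (f : P ⟶ X),
    Projective ((forget₂ _ (ModuleCat.{u} R)).obj P) ∧ Projective P ∧ Epi f := by
  obtain ⟨n, f, hf⟩ := Module.Finite.exists_fin' R X
  have h : Projective ((forget₂ _ (ModuleCat.{u} R)).obj (FGModuleCat.of R (Fin n → R))) :=
    ModuleCat.projective_of_categoryTheory_projective (ModuleCat.of R (Fin n → R))
  exact ⟨_, FGModuleCat.ofHom f, h, Functor.projective_of_map_projective _ h,
    (forget₂ _ (ModuleCat.{u} R)).epi_of_epi_map ((ModuleCat.epi_iff_surjective _).2 hf)⟩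

theorem enough : EnoughProjectives (FGModuleCat.{u} R) := ⟨fun X => by
  obtain ⟨P, f, -, _, _⟩ := exists_pres X
  exact ⟨⟨P, f⟩⟩⟩

theorem hasExt : HasExt.{u} (FGModuleCat.{u} R) :=
  have := enough (R := R)
  hasExt_of_enoughProjectives _

theorem arfg_iff [HasExt.{u} (FGModuleCat.{u} R)] [Module.Finite R M] : ARfg R M ↔ AR R M := by
  have := enough (R := R)
  let F := forget₂ (FGModuleCat.{u} R) (ModuleCat.{u} R)
  have : F.Additive := ⟨rfl⟩
  have : F.PreservesProjectiveObjects := ⟨fun {X} _ => by
    obtain ⟨P, f, _, -, _⟩ := exists_pres X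
    exact Retract.projective ⟨F.map (Projective.factorThru (𝟙 X) f), F.map f, by
      rw [← F.map_comp, Projective.factorThru_comp, F.map_id]⟩⟩
  exact forall₂_congr fun i _ => (Equiv.ofBijective _
    (F.mapExt_bijective_of_preservesProjectiveObjects _ _ i)).subsingleton_congr

end

end Vale.Agent.P195L43
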